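import Mathlib

/-! # P275, lowest degree: row E (the weights of the two lowest degrees) -/

namespace Vale.Agent.P275.R2.H966

open Filter Topology

section

variable {D N : ℕ} {h : ℕ → ℕ → ℕ}

/-- the coefficient of the weight `w` -/
noncomputable def cw (N : ℕ) (h : ℕ → ℕ → ℕ) (w : ℕ) : ℝ :=
  ∑ k ∈ Finset.range (2 * N + 1), (-1) ^ k * (h k w : ℝ)

theorem sum_eq (hw : ∀ k w, h k w ≠ 0 → k ≤ w ∧ w ≤ 2 * k) (s : ℝ) :
    ∑ k ∈ Finset.range (2 * N + 1), ∑ w ∈ Finset.range (2 * k + 1),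
      (-1) ^ k * (h k w : ℝ) * s ^ (4 * N - w) =
    ∑ w ∈ Finset.range (4 * N + 1), cw N h w * s ^ (4 * N - w) := by
  have h1 : ∀ k ∈ Finset.range (2 * N + 1), ∑ w ∈ Finset.range (2 * k + 1),
      (-1) ^ k * (h k w : ℝ) * s ^ (4 * N - w) =
      ∑ w ∈ Finset.range (4 * N + 1), (-1) ^ k * (h k w : ℝ) * s ^ (4 * N - w) := by
    intro k hk
    rw [Finset.mem_range] at hk
    refine Finset.sum_subset (fun w hw' => ?_) (fun w _ hw2 => ?_)
    · rw [Finset.mem_range] at hw' ⊢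
      omega
    · rw [Finset.mem_range] at hw2
      have h2 : h k w = 0 := by
        by_contra h3
        have := (hw k w h3).2
        omega
      rw [h2]; simp
  rw [Finset.sum_congr rfl h1, Finset.sum_comm]
  refine Finset.sum_congr rfl fun w _ => ?_
  rw [cw, Finset.sum_mul]

theorem cw_low (hw : ∀ k w, h k w ≠ 0 → k ≤ w ∧ w ≤ 2 * k) (hz : ∀ k w, k ≤ 2 * D → h k w = 0)
    {w : ℕ} (h1 : w ≤ 2 * D) : cw N h w = 0 := by
  refine Finset.sum_eq_zero fun k _ => ?_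
  have h2 : h k w = 0 := by
    by_contra h3
    exact h3 (hz k w ((hw k w h3).1.trans h1))
  rw [h2]; simp

theorem cw_one (hw : ∀ k w, h k w ≠ 0 → k ≤ w ∧ w ≤ 2 * k) (hz : ∀ k w, k ≤ 2 * D → h k w = 0)
    (hN : D + 1 ≤ N) : cw N h (2 * D + 1) = -(h (2 * D + 1) (2 * D + 1) : ℝ) := by
  rw [cw, Finset.sum_eq_single (2 * D + 1)]
  · rw [Odd.neg_one_pow ⟨D, rfl⟩]; ring
  · intro k _ hk
    have h2 : h k (2 * D + 1) = 0 := by
      by_contra h3
      have h4 := (hw k _ h3).1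
      exact h3 (hz k _ (by omega))
    rw [h2]; simp
  · intro h2
    exact absurd (Finset.mem_range.2 (by omega)) h2

theorem cw_two (hw : ∀ k w, h k w ≠ 0 → k ≤ w ∧ w ≤ 2 * k) (hz : ∀ k w, k ≤ 2 * D → h k w = 0)
    (hN : D + 1 ≤ N) : cw N h (2 * D + 2) =
      -(h (2 * D + 1) (2 * D + 2) : ℝ) + h (2 * D + 2) (2 * D + 2) := by
  have h1 : cw N h (2 * D + 2) =
      ∑ k ∈ ({2 * D + 1, 2 * D + 2} : Finset ℕ), (-1) ^ k * (h k (2 * D + 2) : ℝ) := by
    rw [cw]
    symm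
    refine Finset.sum_subset (fun k hk => ?_) (fun k _ hk => ?_)
    · rw [Finset.mem_range]
      rw [Finset.mem_insert, Finset.mem_singleton] at hk
      omega
    · rw [Finset.mem_insert, Finset.mem_singleton] at hk
      have h2 : h k (2 * D + 2) = 0 := by
        by_contra h3
        have h4 := (hw k _ h3).1
        exact h3 (hz k _ (by omega))
      rw [h2]; simp
  rw [h1, Finset.sum_pair (by omega), Odd.neg_one_pow ⟨D, rfl⟩,
    Even.neg_one_pow ⟨D + 1, by omega⟩]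
  ring

/-- the terms of weight at least `2 D + 3` -/
noncomputable def psi (D N w : ℕ) (s : ℝ) : ℝ :=
  if 2 * D + 3 ≤ w then s ^ (4 * N - w) / s ^ (4 * N - (2 * D + 2)) else 0

theorem tendsto_psi {w : ℕ} (hwN : w ≤ 4 * N) :
    Tendsto (psi D N w) atTop (𝓝 0) := by
  unfold psi
  by_cases h1 : 2 * D + 3 ≤ w
  · simp only [h1, if_true]
    have h2 : Tendsto (fun s : ℝ => (s⁻¹) ^ (w - (2 * D + 2))) atTop (𝓝 0) := by
      have h3 := (tendsto_inv_atTop_zero (𝕜 := ℝ)).pow (w - (2 * D + 2))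
      rwa [zero_pow (by omega)] at h3
    refine h2.congr' ?_
    filter_upwards [eventually_gt_atTop (0 : ℝ)] with s hs
    rw [inv_pow, eq_div_iff (by positivity), inv_mul_eq_div, div_eq_iff (by positivity), ← pow_add]
    congr 1
    omega
  · simp only [h1, if_false]
    exact tendsto_const_nhds

theorem split (hw : ∀ k w, h k w ≠ 0 → k ≤ w ∧ w ≤ 2 * k) (hz : ∀ k w, k ≤ 2 * D → h k w = 0)
    (hN : D + 1 ≤ N) {s : ℝ} (hs : 0 < s) :
    (∑ w ∈ Finset.range (4 * N + 1), cw N h w * s ^ (4 * N - w)) / s ^ (4 * N - (2 * D + 2)) =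
      cw N h (2 * D + 1) * s + cw N h (2 * D + 2) +
        ∑ w ∈ Finset.range (4 * N + 1), cw N h w * psi D N w s := by
  have h1 : ∀ w ∈ Finset.range (4 * N + 1),
      cw N h w * s ^ (4 * N - w) / s ^ (4 * N - (2 * D + 2)) =
      (if w = 2 * D + 1 then cw N h (2 * D + 1) * s else 0) +
        (if w = 2 * D + 2 then cw N h (2 * D + 2) else 0) + cw N h w * psi D N w s := by
    intro w _
    unfold psi
    rcases le_or_gt w (2 * D) with h2 | h2
    · rw [if_neg (by omega), if_neg (by omega), if_neg (by omega), cw_low hw hz h2]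
      simp
    rcases Nat.eq_or_lt_of_le h2 with h3 | h3
    · have h4 : w = 2 * D + 1 := by omega
      subst h4
      rw [if_pos rfl, if_neg (by omega), if_neg (by omega)]
      have h5 : 4 * N - (2 * D + 1) = 4 * N - (2 * D + 2) + 1 := by omega
      rw [h5, pow_succ]
      have h6 : s ^ (4 * N - (2 * D + 2)) ≠ 0 := by positivity
      field_simp
      ring
    rcases Nat.eq_or_lt_of_le h3 with h4 | h4
    · have h5 : w = 2 * D + 2 := by omega
      subst h5
      rw [if_neg (by omega), if_pos rfl, if_neg (by omega)]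
      have h6 : s ^ (4 * N - (2 * D + 2)) ≠ 0 := by positivity
      field_simp
      ring
    · rw [if_neg (by omega), if_neg (by omega), if_pos (by omega)]
      ring
  rw [Finset.sum_div, Finset.sum_congr rfl h1, Finset.sum_add_distrib, Finset.sum_add_distrib,
    Finset.sum_ite_eq', Finset.sum_ite_eq', if_pos (Finset.mem_range.2 (by omega)),
    if_pos (Finset.mem_range.2 (by omega))]

end

theorem core {D N G T L M : ℕ} (hM : M ≠ 0) (hN : D + 1 ≤ N) (hT : T + D + 1 = 2 * G + 2 * N)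
    (e : ℂ → ℂ) (he : Tendsto (fun x : ℝ => e x / (x : ℂ) ^ T) atTop (𝓝 (-(L : ℂ))))
    (h : ℕ → ℕ → ℕ) (hw : ∀ k w, h k w ≠ 0 → k ≤ w ∧ w ≤ 2 * k)
    (hz : ∀ k w, k ≤ 2 * D → h k w = 0)
    (hcnt : ∀ p : ℕ, p.Prime → p ≡ 1 [MOD M] → ((p : ℂ) - 1) ^ (2 * G) *
      ∑ k ∈ Finset.range (2 * N + 1), ∑ w ∈ Finset.range (2 * k + 1),
        (-1) ^ k * (h k w : ℂ) * ((Real.sqrt p : ℝ) : ℂ) ^ (4 * N - w) = e p) :
    h (2 * D + 1) (2 * D + 1) = 0 ∧
      h (2 * D + 1) (2 * D + 2) = L + h (2 * D + 2) (2 * D + 2) := by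
  set A : ℕ → ℝ := fun p => ((p : ℝ) - 1) ^ (2 * G) *
      ∑ k ∈ Finset.range (2 * N + 1), ∑ w ∈ Finset.range (2 * k + 1),
        (-1) ^ k * (h k w : ℝ) * (Real.sqrt p) ^ (4 * N - w) with hA
  set F : Filter ℕ := atTop ⊓ 𝓟 {p : ℕ | p.Prime ∧ p ≡ 1 [MOD M]} with hF
  have hne : F.NeBot := Filter.frequently_iff_neBot.1 (Nat.frequently_atTop_modEq_one hM)
  have hF1 : F ≤ atTop := inf_le_left
  have hF2 : ∀ᶠ p in F, p.Prime ∧ p ≡ 1 [MOD M] := by
    have : {p : ℕ | p.Prime ∧ p ≡ 1 [MOD M]} ∈ F := mem_inf_of_right (mem_principal_self _)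
    exact this
  have hcast : Tendsto (fun p : ℕ => (p : ℝ)) F atTop := tendsto_natCast_atTop_atTop.mono_left hF1
  have hsq : Tendsto (fun p : ℕ => Real.sqrt (p : ℝ)) F atTop :=
    Real.tendsto_sqrt_atTop.comp hcast
  -- the real form of the count
  have h1 : Tendsto (fun p : ℕ => A p / (p : ℝ) ^ T) F (𝓝 (-(L : ℝ))) := by
    have h2 := he.comp hcast
    have h3 : Tendsto (fun p : ℕ => ((A p / (p : ℝ) ^ T : ℝ) : ℂ)) F (𝓝 (-(L : ℂ))) := by
      refine h2.congr' ?_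
      filter_upwards [hF2] with p hp
      have h4 := hcnt p hp.1 hp.2
      show e ((p : ℝ) : ℂ) / ((p : ℝ) : ℂ) ^ T = _
      rw [Complex.ofReal_natCast, ← h4, hA]
      push_cast
      rfl
    have h4 := (Complex.continuous_re.tendsto _).comp h3
    have h5 : (-(L : ℂ)).re = -(L : ℝ) := by simp
    rw [h5] at h4
    refine h4.congr fun p => ?_
    show ((A p / (p : ℝ) ^ T : ℝ) : ℂ).re = _
    rw [Complex.ofReal_re]
  -- dividing by the main factor
  have h2 : Tendsto (fun p : ℕ => (1 - ((p : ℝ))⁻¹) ^ (2 * G)) F (𝓝 1) := by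
    have h3 : Tendsto (fun p : ℕ => ((p : ℝ))⁻¹) F (𝓝 0) := tendsto_inv_atTop_zero.comp hcast
    have h4 := ((tendsto_const_nhds (x := (1 : ℝ))).sub h3).pow (2 * G)
    simpa using h4
  have h3 : Tendsto (fun p : ℕ => cw N h (2 * D + 1) * Real.sqrt p + cw N h (2 * D + 2) +
        ∑ w ∈ Finset.range (4 * N + 1), cw N h w * psi D N w (Real.sqrt p)) F
        (𝓝 (-(L : ℝ))) := by
    have h4 := h1.div h2 one_ne_zero
    rw [div_one] at h4
    refine h4.congr' ?_
    filter_upwards [hF2] with p hp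
    have hp1 : (1 : ℝ) < p := by exact_mod_cast hp.1.one_lt
    have hp0 : (0 : ℝ) < p := by linarith
    have hs : 0 < Real.sqrt p := Real.sqrt_pos.2 hp0
    have hss : Real.sqrt p ^ 2 = p := Real.sq_sqrt hp0.le
    rw [← split hw hz hN hs, ← sum_eq hw]
    show A p / (p : ℝ) ^ T / (1 - (p : ℝ)⁻¹) ^ (2 * G) = _
    rw [hA]
    set Sm : ℝ := ∑ k ∈ Finset.range (2 * N + 1), ∑ w ∈ Finset.range (2 * k + 1),
        (-1) ^ k * (h k w : ℝ) * (Real.sqrt p) ^ (4 * N - w) with hSm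
    show ((p : ℝ) - 1) ^ (2 * G) * Sm / (p : ℝ) ^ T / (1 - (p : ℝ)⁻¹) ^ (2 * G) = _
    have e1 : (1 - (p : ℝ)⁻¹) = ((p : ℝ) - 1) / p := by field_simp
    have e2 : (p : ℝ) ^ T = (p : ℝ) ^ (2 * G) * Real.sqrt p ^ (4 * N - (2 * D + 2)) := by
      have e3 : (p : ℝ) ^ T = Real.sqrt p ^ (2 * T) := by rw [pow_mul (Real.sqrt p) 2 T, hss]
      have e4 : (p : ℝ) ^ (2 * G) = Real.sqrt p ^ (2 * (2 * G)) := by
        rw [pow_mul (Real.sqrt p) 2 (2 * G), hss]
      rw [e3, e4, ← pow_add]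
      congr 1
      omega
    have hp1' : (p : ℝ) - 1 ≠ 0 := by linarith [hp1]
    rw [e1, e2, div_pow]
    field_simp
  -- the remainder
  have h4 : Tendsto (fun p : ℕ => ∑ w ∈ Finset.range (4 * N + 1),
      cw N h w * psi D N w (Real.sqrt p)) F (𝓝 0) := by
    have h5 : Tendsto (fun p : ℕ => ∑ w ∈ Finset.range (4 * N + 1),
      cw N h w * psi D N w (Real.sqrt p)) F
        (𝓝 (∑ w ∈ Finset.range (4 * N + 1), cw N h w * 0)) := by
      refine tendsto_finsetSum _ fun w hw' => ?_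
      rw [Finset.mem_range] at hw'
      exact ((tendsto_psi (by omega)).comp hsq).const_mul _
    simpa using h5
  have h5 : Tendsto (fun p : ℕ => cw N h (2 * D + 1) * Real.sqrt p) F
      (𝓝 (-(L : ℝ) - 0 - cw N h (2 * D + 2))) := by
    have h6 := (h3.sub h4).sub (tendsto_const_nhds (x := cw N h (2 * D + 2)))
    refine h6.congr fun p => ?_
    ring
  have h6 : cw N h (2 * D + 1) = 0 := by
    have h7 : Tendsto (fun p : ℕ => (Real.sqrt p)⁻¹) F (𝓝 0) := tendsto_inv_atTop_zero.comp hsq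
    have h8 := h5.mul h7
    rw [mul_zero] at h8
    have h9 : Tendsto (fun _ : ℕ => cw N h (2 * D + 1)) F (𝓝 0) := by
      refine h8.congr' ?_
      filter_upwards [hF2] with p hp
      have hp0 : (0 : ℝ) < p := by exact_mod_cast hp.1.pos
      have hs : Real.sqrt p ≠ 0 := (Real.sqrt_pos.2 hp0).ne'
      show cw N h (2 * D + 1) * Real.sqrt p * (Real.sqrt p)⁻¹ = _
      field_simp
    exact tendsto_nhds_unique tendsto_const_nhds h9
  have h7 : -(L : ℝ) - 0 - cw N h (2 * D + 2) = 0 := by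
    simp only [h6, zero_mul] at h5
    exact tendsto_nhds_unique h5 tendsto_const_nhds
  rw [cw_one hw hz hN] at h6
  rw [cw_two hw hz hN] at h7
  constructor
  · have : (h (2 * D + 1) (2 * D + 1) : ℝ) = 0 := by linarith
    exact_mod_cast this
  · have : (h (2 * D + 1) (2 * D + 2) : ℝ) = L + h (2 * D + 2) (2 * D + 2) := by linarith
    exact_mod_cast this

theorem rowE {n m g : ℕ} (hn : 1 ≤ n) (hm : m ∣ n) (h2 : 2 ≤ m) (hg : 2 ≤ g) (e : ℂ → ℂ)
    (he : Tendsto (fun x : ℝ => e x / (x : ℂ) ^ ((g - 1) * (n ^ 2 + n * (n / m)) - 1)) atTop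
      (𝓝 (-((2 * g - 2 : ℕ) : ℂ)))) (h : ℕ → ℕ → ℕ)
    (hw : ∀ k w, h k w ≠ 0 → k ≤ w ∧ w ≤ 2 * k)
    (hz : ∀ k w, k ≤ 2 * (n * (n - n / m) * (g - 1)) → h k w = 0)
    (hs : ∑ w ∈ Finset.range (2 * (2 * (n * (n - n / m) * (g - 1)) + 1) + 1),
      h (2 * (n * (n - n / m) * (g - 1)) + 1) w = 2 * g - 2)
    (hcnt : ∀ p : ℕ, p.Prime → p ≡ 1 [MOD 2 * n] →
      ((p : ℂ) - 1) ^ (2 * g - 2) *
        ∑ k ∈ Finset.range (2 * ((n ^ 2 - 1) * (g - 1)) + 1),
          ∑ w ∈ Finset.range (2 * k + 1), (-1) ^ k * (h k w : ℂ) *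
            ((Real.sqrt p : ℝ) : ℂ) ^ (4 * ((n ^ 2 - 1) * (g - 1)) - w) = e p) :
    (∀ w, h (2 * (n * (n - n / m) * (g - 1)) + 1) w
      = if w = 2 * (n * (n - n / m) * (g - 1) + 1) then 2 * g - 2 else 0) ∧
    h (2 * (n * (n - n / m) * (g - 1)) + 2) (2 * (n * (n - n / m) * (g - 1)) + 2) = 0 := by
  obtain ⟨d, rfl⟩ := hm
  have hm0 : 0 < m := by omega
  have hd : 1 ≤ d := by
    rcases Nat.eq_zero_or_pos d with h | h
    · subst h; simp at hn
    · exact h
  rw [Nat.mul_div_cancel_left d hm0] at *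
  obtain ⟨G, rfl⟩ : ∃ G, g = G + 1 := ⟨g - 1, by omega⟩
  have hG : 1 ≤ G := by omega
  have hgg : 2 * (G + 1) - 2 = 2 * G := by omega
  simp only [Nat.add_sub_cancel, hgg] at *
  set n : ℕ := m * d with hnd
  obtain ⟨m', rfl⟩ : ∃ m', m = m' + 2 := ⟨m - 2, by omega⟩
  have hnsub : n - d = (m' + 1) * d := by
    rw [hnd]
    have : (m' + 2) * d = (m' + 1) * d + d := by ring
    omega
  set D : ℕ := n * (n - d) * G with hD
  set N : ℕ := (n ^ 2 - 1) * G with hN
  have hnn : 1 ≤ n * d := Nat.mul_pos hn hd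
  have hn2 : 2 ≤ n * d := by
    have h3 : 2 ≤ n := by
      rw [hnd]
      nlinarith
    nlinarith
  have hN1 : N + G = n ^ 2 * G := by
    rw [hN, Nat.sub_mul, one_mul]
    have : G ≤ n ^ 2 * G := Nat.le_mul_of_pos_left G (by positivity)
    omega
  have hD1 : D + n * d * G = n ^ 2 * G := by
    have h3 : n * (n - d) + n * d = n ^ 2 := by
      rw [← mul_add]
      have h4 : n - d + d = n := by
        rw [hnsub, hnd]; ring
      rw [h4]; ring
    rw [hD, ← h3]; ring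
  have hNG : D + 1 ≤ N := by nlinarith
  have hT : (G * (n ^ 2 + n * d) - 1) + D + 1 = 2 * G + 2 * N := by
    have h3 : 1 ≤ G * (n ^ 2 + n * d) := Nat.mul_pos hG (by positivity)
    have h4 : G * (n ^ 2 + n * d) = n ^ 2 * G + n * d * G := by ring
    omega
  obtain ⟨h3, h4⟩ := core (M := 2 * n) (by omega) hNG hT e he h hw hz hcnt
  have h5 : 2 * D + 2 ∈ Finset.range (2 * (2 * D + 1) + 1) := Finset.mem_range.2 (by omega)
  have h6 : h (2 * D + 1) (2 * D + 2) ≤ 2 * G := by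
    rw [← hs]
    exact Finset.single_le_sum (f := fun w => h (2 * D + 1) w) (fun w _ => Nat.zero_le _) h5
  have h7 : h (2 * D + 2) (2 * D + 2) = 0 := by omega
  have h8 : h (2 * D + 1) (2 * D + 2) = 2 * G := by omega
  refine ⟨fun w => ?_, h7⟩
  by_cases h9 : w = 2 * (D + 1)
  · rw [if_pos h9, h9]
    exact h8
  · rw [if_neg h9]
    by_cases h10 : w ∈ Finset.range (2 * (2 * D + 1) + 1)
    · have h11 := Finset.sum_erase_add (Finset.range (2 * (2 * D + 1) + 1))
        (fun w => h (2 * D + 1) w) h5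
      rw [hs] at h11
      have h12 : h (2 * D + 1) w ≤ ∑ x ∈ (Finset.range (2 * (2 * D + 1) + 1)).erase (2 * D + 2),
          h (2 * D + 1) x :=
        Finset.single_le_sum (f := fun w => h (2 * D + 1) w) (fun w _ => Nat.zero_le _)
          (Finset.mem_erase.2 ⟨by omega, h10⟩)
      omega
    · rw [Finset.mem_range] at h10
      by_contra h11
      have := (hw _ _ h11).2
      omega

end Vale.Agent.P275.R2.H966
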